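import Vale.Agent.P086.Bdl.B4

/-!
All free group factors `L(F_n)`, `2 ≤ n ≤ ∞`, are isomorphic: for countable sets `α`, `β` with at
least two elements there is a unitary `U : ℓ²(F_α) → ℓ²(F_β)` with `U L(F_α) U* = L(F_β)`.
-/

namespace Vale.Agent.Results.P086.Isomorphism

open Vale.Agent.P086

theorem result (α β : Type) [Countable α] [Countable β] [Nontrivial α] [Nontrivial β]
    (E F : Type) [NormedAddCommGroup E] [InnerProductSpace ℂ E] [CompleteSpace E]
    [NormedAddCommGroup F] [InnerProductSpace ℂ F] [CompleteSpace F]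
    (e : HilbertBasis (FreeGroup α) ℂ E) (f : HilbertBasis (FreeGroup β) ℂ F) :
    ∃ U : E ≃ₗᵢ[ℂ] F, U (e 1) = f 1 ∧
      ∀ x : E →L[ℂ] E, x ∈ FF.GroupVN e ↔ U.conjStarAlgEquiv x ∈ FF.GroupVN f :=
  FF.exists_unitary_of_spIso (spIso_all α β) e f

end Vale.Agent.Results.P086.Isomorphism
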