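import Vale.Agent.P086.Bdl.B4
import Vale.Agent.P086.FF.RankSt

/-!
Kadison's rank question: the free group factors `L(F_n)`, `2 ≤ n ≤ ∞`, are all isomorphic.
`FreeGroup (Fin n)` is the free group on `n` generators, `FreeGroup ℕ` is the free group on
countably infinitely many generators.
-/

namespace Vale.Agent.Results.P086.RankQuestion

open Vale.Agent.P086

theorem isomorphic_of_spIso {G H : Type} [Group G] [Group H] (h : SpIso G H) :
    FF.Isomorphic G H := by
  intro E F _ _ _ _ _ _ e f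
  obtain ⟨U, -, hU⟩ := FF.exists_unitary_of_spIso h e f
  refine ⟨fun x => U.conjStarAlgEquiv x, ⟨⟨fun x hx => (hU x).1 hx, ?_, ?_⟩, ?_, ?_, ?_, ?_⟩⟩
  · exact U.conjStarAlgEquiv.injective.injOn
  · intro y hy
    refine ⟨U.conjStarAlgEquiv.symm y, ?_, StarAlgEquiv.apply_symm_apply _ _⟩
    rw [hU, StarAlgEquiv.apply_symm_apply]
    exact hy
  · exact fun x _ y _ => map_add _ x y
  · exact fun x _ y _ => map_mul _ x y
  · exact fun c x _ => map_smul _ c x
  · exact fun x _ => map_star _ x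

/-- All free group factors are isomorphic: `L(F_m) ≅ L(F_n)` for all `2 ≤ m, n < ∞`, and
`L(F_n) ≅ L(F_∞)` for all `2 ≤ n < ∞`. -/
theorem result :
    (∀ m n : ℕ, 2 ≤ m → 2 ≤ n → FF.Isomorphic (FreeGroup (Fin m)) (FreeGroup (Fin n))) ∧
    (∀ n : ℕ, 2 ≤ n → FF.Isomorphic (FreeGroup (Fin n)) (FreeGroup ℕ)) := by
  constructor
  · intro m n hm hn
    have h1 : Nontrivial (Fin m) := Fin.nontrivial_iff_two_le.2 hm
    have h2 : Nontrivial (Fin n) := Fin.nontrivial_iff_two_le.2 hn
    exact isomorphic_of_spIso (spIso_all (Fin m) (Fin n))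
  · intro n hn
    have h2 : Nontrivial (Fin n) := Fin.nontrivial_iff_two_le.2 hn
    exact isomorphic_of_spIso (spIso_all (Fin n) ℕ)

end Vale.Agent.Results.P086.RankQuestion
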